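import Mathlib

/-!
An alternating binomial sum against a binomial coefficient: if `P` is polynomial of degree at
most `d`, then `∑ k, (-1)^k C(L,k) P(k) C(G+k,m)` is `C(G+L,m)` times `poly(L) * ρ^L`, where
`m ≤ ρ (G+L)`.
-/

open Finset
open fwdDiff

namespace Vale.Agent.P359.Decay

theorem alt_choose (r A m : ℕ) :
    ∑ j ∈ range (r + 1), ((-1 : ℤ) ^ j * r.choose j * (A + j).choose m) =
      if r ≤ m then (-1) ^ r * (A.choose (m - r) : ℤ) else 0 := by
  have h := fwdDiff_iter_eq_sum_shift 1 (fun x : ℕ => (x.choose m : ℤ)) r A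
  have e : ∑ j ∈ range (r + 1), ((-1 : ℤ) ^ j * r.choose j * (A + j).choose m) =
      (-1) ^ r * (Δ_[1])^[r] (fun x : ℕ => (x.choose m : ℤ)) A := by
    rw [h, mul_sum]
    refine sum_congr rfl fun j hj => ?_
    have hj' : j ≤ r := Nat.lt_succ_iff.1 (mem_range.1 hj)
    simp only [smul_eq_mul, mul_one]
    have e2 : (-1 : ℤ) ^ r * (-1) ^ (r - j) = (-1) ^ j := by
      rw [← pow_add, show r + (r - j) = j + 2 * (r - j) by omega, pow_add, pow_mul]
      simp
    rw [← e2]; ring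
  rw [e]
  split_ifs with hm
  · obtain ⟨i, rfl⟩ := Nat.exists_eq_add_of_le hm
    rw [show (fun x : ℕ => (x.choose (r + i) : ℤ)) = (fun x ↦ x.choose (r + i) : ℕ → ℤ) from rfl,
      fwdDiff_iter_choose, Nat.add_sub_cancel_left]
  · obtain ⟨i, rfl⟩ := Nat.exists_eq_add_of_lt (not_le.1 hm)
    have h0 := fwdDiff_iter_choose 0 m
    rw [add_zero] at h0
    rw [show m + i + 1 = i + (1 + m) by omega, Function.iterate_add_apply,
      Function.iterate_add_apply, h0]
    simp only [Function.iterate_one, Nat.choose_zero_right, Nat.cast_one, fwdDiff_const]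
    have : ∀ q : ℕ, (Δ_[1])^[q] (fun _ : ℕ => (0 : ℤ)) = fun _ => 0 := by
      intro q; induction q with
      | zero => rfl
      | succ q ih => rw [Function.iterate_succ_apply', ih]; simp
    rw [this]; simp

theorem alt_choose_choose (L p G m : ℕ) :
    ∑ k ∈ range (L + 1), ((-1 : ℤ) ^ k * L.choose k * k.choose p * (G + k).choose m) =
      if L - p ≤ m then (-1) ^ L * (L.choose p : ℤ) * (G + p).choose (m - (L - p)) else 0 := by
  rcases lt_or_ge L p with hp | hp
  · rw [Finset.sum_eq_zero fun k hk => ?_, Nat.choose_eq_zero_of_lt hp]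
    · simp
    · rw [Nat.choose_eq_zero_of_lt (show k < p from by
        have := mem_range.1 hk; omega)]
      simp
  obtain ⟨r, rfl⟩ := Nat.exists_eq_add_of_le hp
  rw [show p + r + 1 = p + (r + 1) by omega, sum_range_add, Finset.sum_eq_zero
    (fun k hk => by rw [Nat.choose_eq_zero_of_lt (mem_range.1 hk)]; simp), zero_add,
    Nat.add_sub_cancel_left]
  have key : ∀ j ∈ range (r + 1), (-1 : ℤ) ^ (p + j) * (p + r).choose (p + j) *
      (p + j).choose p * (G + (p + j)).choose m =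
      (-1) ^ p * (p + r).choose p * ((-1) ^ j * r.choose j * ((G + p) + j).choose m) := by
    intro j hj
    have hc := Nat.choose_mul (n := p + r) (k := p + j) (s := p) (Nat.le_add_right _ _)
    rw [Nat.add_sub_cancel_left, Nat.add_sub_cancel_left] at hc
    have hc' : ((p + r).choose (p + j) : ℤ) * (p + j).choose p =
        (p + r).choose p * r.choose j := by exact_mod_cast hc
    rw [show G + (p + j) = G + p + j by omega, pow_add]
    linear_combination (-1 : ℤ) ^ p * (-1) ^ j * ((G + p + j).choose m : ℤ) * hc'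
  rw [sum_congr rfl key, ← mul_sum, alt_choose]
  split_ifs
  · rw [pow_add]; ring
  · ring

theorem choose_sub_le {ρ : ℝ} (hρ0 : 0 ≤ ρ) (hρ1 : ρ ≤ 1) :
    ∀ r A m : ℕ, r ≤ m → (m : ℝ) ≤ ρ * (A + r) →
      (A.choose (m - r) : ℝ) ≤ ρ ^ r * ((A + r).choose m : ℝ) := by
  intro r
  induction r with
  | zero => simp
  | succ r ih =>
    intro A m hrm hm
    obtain ⟨m', rfl⟩ : ∃ m', m = m' + 1 := ⟨m - 1, by omega⟩
    push_cast at hm
    have h1 := ih A m' (by omega) (by nlinarith)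
    have h2 : ((A + r + 1 : ℕ) : ℝ) * (A + r).choose m' =
        ((A + r + 1).choose (m' + 1) : ℝ) * ((m' + 1 : ℕ) : ℝ) := by
      exact_mod_cast Nat.add_one_mul_choose_eq (A + r) m'
    push_cast at h2
    have hpos : (0 : ℝ) < A + r + 1 := by positivity
    have h3 : ((A + r).choose m' : ℝ) ≤ ρ * (A + r + 1).choose (m' + 1) := by
      have hc : (0 : ℝ) ≤ (A + r + 1).choose (m' + 1) := Nat.cast_nonneg _
      refine le_of_mul_le_mul_left ?_ hpos
      rw [h2]
      nlinarith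
    rw [show m' + 1 - (r + 1) = m' - r by omega, ← add_assoc, pow_succ, mul_assoc]
    exact h1.trans (mul_le_mul_of_nonneg_left h3 (pow_nonneg hρ0 r))

theorem iterate_fwdDiff_natCast (g : ℝ → ℝ) :
    ∀ n : ℕ, (Δ_[1])^[n] (fun k : ℕ => g k) = fun k : ℕ => (Δ_[1])^[n] g k := by
  intro n
  induction n with
  | zero => rfl
  | succ n ih =>
    rw [Function.iterate_succ_apply', ih]
    funext k
    simp [fwdDiff, Function.iterate_succ_apply']

theorem iterate_fwdDiff_poly (q : Polynomial ℝ) {d p : ℕ} (hd : q.natDegree ≤ d) (hp : d < p) :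
    (Δ_[1])^[p] (fun k : ℕ => q.eval (k : ℝ)) = 0 := by
  rw [iterate_fwdDiff_natCast (fun x => q.eval x) p]
  funext k
  rw [show (fun x => q.eval x) = q.eval from rfl,
    Polynomial.fwdDiff_iter_eq_zero_of_degree_lt (lt_of_le_of_lt hd hp)]
  rfl

theorem abs_iterate_fwdDiff_le (f : ℕ → ℝ) {M : ℝ} {p : ℕ} (hM : ∀ k ≤ p, |f k| ≤ M) :
    |(Δ_[1])^[p] f 0| ≤ 2 ^ p * M := by
  rw [fwdDiff_iter_eq_sum_shift]
  refine (abs_sum_le_sum_abs _ _).trans ?_
  have hb : ((2 : ℝ) ^ p) = ∑ k ∈ range (p + 1), (p.choose k : ℝ) := by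
    have := congrArg (fun x : ℕ => (x : ℝ)) (Nat.sum_range_choose p)
    push_cast at this
    exact this.symm
  rw [hb, sum_mul]
  refine sum_le_sum fun k hk => ?_
  rw [zsmul_eq_mul, smul_eq_mul, mul_one, zero_add, abs_mul]
  refine mul_le_mul (le_of_eq ?_) (hM k (by have := mem_range.1 hk; omega)) (abs_nonneg _)
    (Nat.cast_nonneg _)
  push_cast
  rw [abs_mul, abs_pow, abs_neg, abs_one, one_pow, one_mul, Nat.abs_cast]

theorem newton (q : Polynomial ℝ) {d : ℕ} (hd : q.natDegree ≤ d) (k : ℕ) :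
    q.eval (k : ℝ) = ∑ p ∈ range (d + 1),
      (k.choose p : ℝ) * (Δ_[1])^[p] (fun j : ℕ => q.eval (j : ℝ)) 0 := by
  have h := shift_eq_sum_fwdDiff_iter 1 (fun j : ℕ => q.eval (j : ℝ)) k 0
  simp only [smul_eq_mul, mul_one, zero_add, nsmul_eq_mul] at h
  rw [h]
  have e1 : ∑ p ∈ range (k + 1), (k.choose p : ℝ) * (Δ_[1])^[p] (fun j : ℕ => q.eval (j : ℝ)) 0 =
      ∑ p ∈ range (max k d + 1), (k.choose p : ℝ) * (Δ_[1])^[p] (fun j : ℕ => q.eval (j : ℝ)) 0 := by
    refine sum_subset (by intro x; simp; omega) fun p _ hp => ?_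
    rw [Nat.choose_eq_zero_of_lt (by simp at hp; omega)]; simp
  rw [e1]
  refine (sum_subset (by intro x; simp; omega) fun p _ hp => ?_).symm
  rw [iterate_fwdDiff_poly q hd (by simp at hp; omega)]; simp

/-- The alternating sum of a degree `d` polynomial against `C(G+k,m)` decays like `ρ^L`. -/
theorem abs_alt_sum_le (q : Polynomial ℝ) {d : ℕ} (hd : q.natDegree ≤ d) {M ρ : ℝ}
    (hM : ∀ k ≤ d, |q.eval (k : ℝ)| ≤ M) (hρ0 : 0 < ρ) (hρ1 : ρ ≤ 1) {L G m : ℕ}
    (hm : (m : ℝ) ≤ ρ * (G + L)) :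
    |∑ k ∈ range (L + 1),
        (-1 : ℝ) ^ k * (L.choose k : ℝ) * q.eval (k : ℝ) * ((G + k).choose m : ℝ)| ≤
      M * (d + 1) * (2 * (L + 1) / ρ) ^ d * ρ ^ L * ((G + L).choose m : ℝ) := by
  have hM0 : 0 ≤ M := (abs_nonneg _).trans (hM 0 (Nat.zero_le _))
  set D : ℕ → ℝ := fun p => (Δ_[1])^[p] (fun j : ℕ => q.eval (j : ℝ)) 0 with hD
  have e : ∑ k ∈ range (L + 1),
        (-1 : ℝ) ^ k * (L.choose k : ℝ) * q.eval (k : ℝ) * ((G + k).choose m : ℝ) =
      ∑ p ∈ range (d + 1), D p * (((∑ k ∈ range (L + 1),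
        ((-1 : ℤ) ^ k * L.choose k * k.choose p * (G + k).choose m)) : ℤ) : ℝ) := by
    push_cast
    simp_rw [mul_sum]
    rw [sum_comm]
    refine sum_congr rfl fun k _ => ?_
    rw [newton q hd k, mul_sum, sum_mul]
    exact sum_congr rfl fun p _ => by simp only [hD]; ring
  rw [e]
  refine (abs_sum_le_sum_abs _ _).trans ?_
  rw [show M * (d + 1) * (2 * (L + 1) / ρ) ^ d * ρ ^ L * ((G + L).choose m : ℝ) =
    ∑ _p ∈ range (d + 1), M * (2 * (L + 1) / ρ) ^ d * ρ ^ L * ((G + L).choose m : ℝ) by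
    simp; ring]
  refine sum_le_sum fun p hp => ?_
  have hpd : p ≤ d := Nat.lt_succ_iff.1 (mem_range.1 hp)
  rw [alt_choose_choose, abs_mul]
  split_ifs with hr
  swap
  · simp; positivity
  rcases lt_or_ge L p with hLp | hLp
  · rw [Nat.choose_eq_zero_of_lt hLp]; simp; positivity
  obtain ⟨r, rfl⟩ := Nat.exists_eq_add_of_le hLp
  rw [Nat.add_sub_cancel_left] at hr ⊢
  push_cast at hm ⊢
  have h1 : ((G + p).choose (m - r) : ℝ) ≤ ρ ^ r * ((G + (p + r)).choose m : ℝ) := by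
    rw [← add_assoc]
    exact choose_sub_le hρ0.le hρ1 r (G + p) m hr (by push_cast; linarith)
  have h2 : |D p| ≤ 2 ^ p * M :=
    abs_iterate_fwdDiff_le _ fun k hk => hM k (hk.trans hpd)
  have h3 : ((p + r).choose p : ℝ) ≤ ((p : ℝ) + r + 1) ^ p := by
    refine le_trans (Nat.cast_le.2 (Nat.choose_le_pow (p + r) p)) ?_
    push_cast
    exact pow_le_pow_left₀ (by positivity) (by linarith) p
  rw [abs_mul, abs_mul, abs_pow, abs_neg, abs_one, one_pow, one_mul, Nat.abs_cast, Nat.abs_cast]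
  calc |D p| * (((p + r).choose p : ℝ) * ((G + p).choose (m - r) : ℝ))
      ≤ (2 ^ p * M) * (((p : ℝ) + r + 1) ^ p * (ρ ^ r * ((G + (p + r)).choose m : ℝ))) := by
        gcongr
    _ = M * (2 * ((p : ℝ) + r + 1) / ρ) ^ p * ρ ^ (p + r) * ((G + (p + r)).choose m : ℝ) := by
        rw [pow_add, div_pow, mul_pow]; field_simp
    _ ≤ _ := by
        gcongr
        rw [le_div_iff₀ hρ0]
        linarith [(Nat.cast_nonneg p : (0 : ℝ) ≤ p), (Nat.cast_nonneg r : (0 : ℝ) ≤ r)]

end Vale.Agent.P359.Decay
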