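import Vale.Agent.P359.Decay.Scalar
import Vale.Agent.P359.Rep.Binom

/-!
The recoupling sum of two pair couplings between two top vectors, evaluated at one component:
it decays geometrically in the weight, uniformly in the number of flux quanta.
-/

open Finset Polynomial

namespace Vale.Agent.P359.Decay

/-- The unnormalised coupling coefficient of `spin a ⊗ spin b` at depth `n`. -/
def rc (a b n : ℕ) (M k : ℤ) : ℤ := Rep.coef n (a - n) (b - n) M k

/-- The squared norm of the unnormalised top vector. -/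
noncomputable def nrm (a b L : ℕ) : ℝ :=
  ∑ i ∈ range (L + 1), (L.choose i : ℝ) ^ 2 / ((a.choose i : ℝ) * (b.choose (L - i) : ℝ))

/-- The weighted top vector. -/
noncomputable def top (c Q l k : ℕ) : ℝ :=
  (-1) ^ (l + k) * (l.choose k : ℝ) / ((c.choose (l - k) : ℝ) * (Q.choose k : ℝ))

/-- One component of the transposed kernel applied to a top vector. -/
noncomputable def comp (Q s c' n n' l l' k' : ℕ) : ℝ :=
  ∑ k ∈ range (l' + 1), top c' Q l' k * (rc s Q n ((l : ℤ) + n - k' - k) k : ℝ) *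
    (rc s Q n' ((l : ℤ) + n - k' - k) k' : ℝ) * ((Rep.chz s ((l : ℤ) + n - k' - k) : ℤ) : ℝ)⁻¹

/-- The unnormalised recoupling sum. -/
noncomputable def dsum (Q s c c' n n' l l' : ℕ) : ℝ :=
  ∑ k' ∈ range (l + 1), top c Q l k' * comp Q s c' n n' l l' k'

theorem chz_pos {s : ℕ} {x : ℤ} (h0 : 0 ≤ x) (h1 : x ≤ s) : 0 < Rep.chz s x := by
  rw [Rep.chz, if_pos h0]
  exact_mod_cast Nat.choose_pos (by omega)

theorem chz_gt {s : ℕ} {x : ℤ} (h : (s : ℤ) < x) : Rep.chz s x = 0 := by
  rw [Rep.chz, if_pos (by omega), Nat.choose_eq_zero_of_lt (by omega)]; rfl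

theorem rc_zero {a b n : ℕ} (ha : n ≤ a) (hb : n ≤ b) {M k : ℤ}
    (h : M < 0 ∨ (a : ℤ) < M ∨ k < 0 ∨ (b : ℤ) < k ∨ M + k < n) : rc a b n M k = 0 := by
  rw [rc, Rep.coef]
  refine sum_eq_zero fun i hi => ?_
  have hi' := mem_range.1 hi
  by_cases h1 : M - i < 0
  · rw [Rep.chz_neg _ h1]; ring
  by_cases h2 : k + i - n < 0
  · rw [Rep.chz_neg _ h2]; ring
  rcases h with h | h | h | h | h
  · omega
  · rw [chz_gt (show ((a - n : ℕ) : ℤ) < M - i by omega)]; ring
  · omega
  · rw [chz_gt (show ((b - n : ℕ) : ℤ) < k + i - n by omega)]; ring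
  · omega

theorem chz_step (s : ℕ) {x : ℤ} (h0 : 0 ≤ x) :
    ((x : ℝ) + 1) * (Rep.chz s (x + 1) : ℤ) = ((s : ℝ) - x) * (Rep.chz s x : ℤ) := by
  lift x to ℕ using h0
  rw [show (x : ℤ) + 1 = ((x + 1 : ℕ) : ℤ) by push_cast; ring, Rep.chz_natCast, Rep.chz_natCast]
  rcases le_or_gt x s with h | h
  · have := congrArg (fun y : ℕ => (y : ℝ)) (Nat.choose_succ_right_eq s x)
    push_cast [h] at this ⊢
    linarith
  · rw [Nat.choose_eq_zero_of_lt h, Nat.choose_eq_zero_of_lt (by omega)]; simp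

/-- The step identity for the middle weight. -/
theorem mid_step {s Q n n' : ℕ} (hs : n ≤ s) (hQ : n ≤ Q) (hs' : n' ≤ s) (hQ' : n' ≤ Q)
    (S k k' : ℤ) :
    ((s : ℝ) - S) * (rc s Q n S k : ℝ) * (rc s Q n' (S + 1) k' : ℝ) *
        ((Rep.chz s (S + 1) : ℤ) : ℝ)⁻¹ =
      (rc s Q n S k : ℝ) * ((S : ℝ) + 1) * (rc s Q n' (S + 1) k' : ℝ) *
        ((Rep.chz s S : ℤ) : ℝ)⁻¹ := by
  rcases lt_or_ge S 0 with h | h
  · rw [rc_zero hs hQ (.inl h)]; simp
  rcases le_or_gt (s : ℤ) S with h' | h'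
  · rw [rc_zero hs' hQ' (M := S + 1) (.inr (.inl (by omega)))]; simp
  have a : (0 : ℝ) < ((Rep.chz s S : ℤ) : ℝ) := by exact_mod_cast chz_pos h h'.le
  have b : (0 : ℝ) < ((Rep.chz s (S + 1) : ℤ) : ℝ) := by
    exact_mod_cast chz_pos (by omega) (by omega)
  have e := chz_step s h
  field_simp
  linear_combination (-((rc s Q n S k : ℝ) * (rc s Q n' (S + 1) k' : ℝ))) * e

theorem top_step {c Q l k : ℕ} (hk : k < l) (hlc : l ≤ c) (hlQ : l ≤ Q) :
    ((c : ℝ) - l + 1 + k) * top c Q l k + ((Q : ℝ) - k) * top c Q l (k + 1) = 0 := by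
  have e1 := congrArg (fun y : ℕ => (y : ℝ)) (Nat.choose_succ_right_eq l k)
  have e2 := congrArg (fun y : ℕ => (y : ℝ)) (Nat.choose_succ_right_eq Q k)
  have e3 := congrArg (fun y : ℕ => (y : ℝ)) (Nat.choose_succ_right_eq c (l - (k + 1)))
  rw [show l - (k + 1) + 1 = l - k by omega] at e3
  push_cast [show k ≤ l by omega, show k ≤ Q by omega, show l - (k + 1) ≤ c by omega,
    show k + 1 ≤ l by omega] at e1 e2 e3
  have p1 : (0 : ℝ) < c.choose (l - k) := by exact_mod_cast Nat.choose_pos (by omega)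
  have p2 : (0 : ℝ) < c.choose (l - (k + 1)) := by exact_mod_cast Nat.choose_pos (by omega)
  have p3 : (0 : ℝ) < Q.choose k := by exact_mod_cast Nat.choose_pos (by omega)
  have p4 : (0 : ℝ) < Q.choose (k + 1) := by exact_mod_cast Nat.choose_pos (by omega)
  have q1 : (k : ℝ) + 1 ≠ 0 := by positivity
  have q2 : ((c : ℝ) - l + 1 + k) ≠ 0 := by
    have : (l : ℝ) ≤ c := by exact_mod_cast hlc
    have : (0 : ℝ) ≤ k := Nat.cast_nonneg k
    linarith
  have l1 : (l.choose (k + 1) : ℝ) = l.choose k * (l - k) / (k + 1) := by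
    field_simp; linarith
  have l2 : (Q.choose (k + 1) : ℝ) = Q.choose k * (Q - k) / (k + 1) := by
    field_simp; linarith
  have l3 : (c.choose (l - k) : ℝ) = c.choose (l - (k + 1)) * ((c : ℝ) - l + 1 + k) / (l - k) := by
    have : (k : ℝ) < l := by exact_mod_cast hk
    rw [eq_div_iff (by linarith)]
    linear_combination e3
  have q3 : (Q : ℝ) - k ≠ 0 := by
    have : (k : ℝ) < Q := by exact_mod_cast lt_of_lt_of_le hk hlQ
    linarith
  have q4 : (l : ℝ) - k ≠ 0 := by
    have : (k : ℝ) < l := by exact_mod_cast hk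
    linarith
  simp only [top]
  rw [l1, l2, l3, ← add_assoc l k 1, pow_succ]
  field_simp
  ring

/-- The component vector is annihilated by the raising operator. -/
theorem comp_step {Q s c' n n' l l' k' : ℕ} (hk : k' < l) (hll : l + n = l' + n')
    (hs : n ≤ s) (hQ : n ≤ Q) (hs' : n' ≤ s) (hQ' : n' ≤ Q)
    (hc : c' + 2 * n' = s + Q) (hlc : l' ≤ c') (hlQ : l' ≤ Q) :
    ((l : ℝ) - k') * comp Q s c' n n' l l' k' +
      ((k' : ℝ) + 1) * comp Q s c' n n' l l' (k' + 1) = 0 := by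
  set S : ℕ → ℤ := fun k => (l : ℤ) + n - (k' + 1 : ℕ) - k with hS
  set R : ℤ → ℤ → ℝ := fun M k => (rc s Q n M k : ℝ) with hR
  set R' : ℤ → ℤ → ℝ := fun M k => (rc s Q n' M k : ℝ) with hR'
  set w : ℤ → ℝ := fun M => ((Rep.chz s M : ℤ) : ℝ)⁻¹ with hw
  set g : ℕ → ℝ := fun k => top c' Q l' k with hg
  -- lowering on the first factor
  have h1 : ((l : ℝ) - k') * comp Q s c' n n' l l' k' =
      ∑ k ∈ range (l' + 1), g k * R (S k) k * ((S k : ℝ) + 1) * R' (S k + 1) k' * w (S k) +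
      ∑ k ∈ range (l' + 1), ((Q : ℝ) + 1 - k) * g k * R (S k + 1) ((k : ℤ) - 1) *
        R' (S k + 1) k' * w (S k + 1) := by
    rw [comp, mul_sum, ← sum_add_distrib]
    refine sum_congr rfl fun k _ => ?_
    have e0 : (l : ℤ) + n - k' - k = S k + 1 := by simp only [hS]; push_cast; ring
    have low := congrArg (fun y : ℤ => (y : ℝ)) (Rep.coef_lower n (s - n) (Q - n) (S k + 1) k)
    rw [show n + (s - n) = s by omega, show n + (Q - n) = Q by omega, add_sub_cancel_right] at low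
    push_cast at low
    have eS : ((S k : ℝ)) + 1 + k - n = (l : ℝ) - k' := by simp only [hS]; push_cast; ring
    have low' : ((l : ℝ) - k') * R (S k + 1) k =
        ((s : ℝ) - S k) * R (S k) k + ((Q : ℝ) + 1 - k) * R (S k + 1) ((k : ℤ) - 1) := by
      simp only [hR, rc]
      linear_combination -low - (Rep.coef n (s - n) (Q - n) (S k + 1) k : ℝ) * eS
    have mid := mid_step hs hQ hs' hQ' (S k) (k : ℤ) (k' : ℤ)
    rw [e0]
    simp only [hR, hR', hw, hg] at low' ⊢
    linear_combination (top c' Q l' k * (rc s Q n' (S k + 1) k' : ℝ) *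
      ((Rep.chz s (S k + 1) : ℤ) : ℝ)⁻¹) * low' + top c' Q l' k * mid
  -- shift of the second sum
  have h2 : ∑ k ∈ range (l' + 1), ((Q : ℝ) + 1 - k) * g k * R (S k + 1) ((k : ℤ) - 1) *
        R' (S k + 1) k' * w (S k + 1) =
      ∑ k ∈ range (l' + 1), ((Q : ℝ) - k) * g (k + 1) * R (S k) k * R' (S k) k' * w (S k) := by
    rw [sum_range_succ', sum_range_succ]
    have z0 : R (S 0 + 1) ((0 : ℕ) - 1 : ℤ) = 0 := by
      simp only [hR]; rw [rc_zero hs hQ (.inr (.inr (.inl (by omega))))]; simp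
    have z1 : g (l' + 1) = 0 := by simp [hg, top, Nat.choose_succ_self]
    rw [z0, z1]
    simp only [mul_zero, zero_mul, add_zero]
    refine sum_congr rfl fun k _ => ?_
    rw [show S (k + 1) + 1 = S k by simp only [hS]; push_cast; ring,
      show ((k + 1 : ℕ) : ℤ) - 1 = k by push_cast; ring]
    push_cast; ring
  have h3 : ((k' : ℝ) + 1) * comp Q s c' n n' l l' (k' + 1) =
      ∑ k ∈ range (l' + 1), g k * R (S k) k * ((k' : ℝ) + 1) * R' (S k) (k' + 1 : ℕ) * w (S k) := by
    rw [comp, mul_sum]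
    refine sum_congr rfl fun k _ => ?_
    simp only [hS, hR, hR', hw, hg]; ring
  rw [h1, h2, h3, ← sum_add_distrib, ← sum_add_distrib]
  refine sum_eq_zero fun k hk' => ?_
  have hkl : k ≤ l' := Nat.lt_succ_iff.1 (mem_range.1 hk')
  have up := congrArg (fun y : ℤ => (y : ℝ)) (Rep.coef_raise n' (s - n') (Q - n') (S k) k')
  rw [show n' + (s - n') + (Q - n') = s + Q - n' by omega] at up
  push_cast [show n' ≤ s + Q by omega] at up
  have eS : (S k : ℝ) = (l : ℝ) + n - k' - 1 - k := by simp only [hS]; push_cast; ring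
  have hll' : (l : ℝ) + n = l' + n' := by exact_mod_cast hll
  have hc' : (c' : ℝ) + 2 * n' = s + Q := by exact_mod_cast hc
  have up' : ((S k : ℝ) + 1) * R' (S k + 1) k' + ((k' : ℝ) + 1) * R' (S k) (k' + 1 : ℕ) =
      ((c' : ℝ) - l' + 1 + k) * R' (S k) k' := by
    simp only [hR', rc]
    push_cast
    linear_combination up - (Rep.coef n' (s - n') (Q - n') (S k) k' : ℝ) * (eS + hll' + hc')
  rcases lt_or_eq_of_le hkl with hlt | rfl
  · linear_combination (g k * R (S k) k * w (S k)) * up' +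
      (R (S k) k * R' (S k) k' * w (S k)) * top_step (c := c') hlt hlc hlQ
  · have z : R' (S k) k' = 0 := by
      simp only [hR']
      rw [rc_zero hs' hQ' (.inr (.inr (.inr (.inr (by simp only [hS]; push_cast; omega)))))]
      simp
    rw [z] at up' ⊢
    linear_combination (g k * R (S k) k * w (S k)) * up'

theorem comp_eq {Q s c' n n' l l' : ℕ} (hll : l + n = l' + n') (hs : n ≤ s) (hQ : n ≤ Q)
    (hs' : n' ≤ s) (hQ' : n' ≤ Q) (hc : c' + 2 * n' = s + Q) (hlc : l' ≤ c') (hlQ : l' ≤ Q) :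
    ∀ k' ≤ l, comp Q s c' n n' l l' k' =
      (-1) ^ k' * (l.choose k' : ℝ) * comp Q s c' n n' l l' 0 := by
  intro k'
  induction k' with
  | zero => simp
  | succ k' ih =>
    intro hk
    have h := comp_step (c' := c') (show k' < l by omega) hll hs hQ hs' hQ' hc hlc hlQ
    rw [ih (by omega)] at h
    have e := congrArg (fun y : ℕ => (y : ℝ)) (Nat.choose_succ_right_eq l k')
    push_cast [show k' ≤ l by omega] at e
    have hk0 : (k' : ℝ) + 1 ≠ 0 := by positivity
    apply mul_left_cancel₀ hk0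
    rw [pow_succ]
    linear_combination h + (-1 : ℝ) ^ k' * comp Q s c' n n' l l' 0 * e

theorem dsum_eq {Q s c c' n n' l l' : ℕ} (hll : l + n = l' + n') (hs : n ≤ s) (hQ : n ≤ Q)
    (hs' : n' ≤ s) (hQ' : n' ≤ Q) (hc : c' + 2 * n' = s + Q) (hlc : l' ≤ c') (hlQ : l' ≤ Q) :
    dsum Q s c c' n n' l l' = (-1) ^ l * nrm c Q l * comp Q s c' n n' l l' 0 := by
  rw [dsum, nrm, mul_sum, sum_mul]
  rw [← sum_range_reflect (fun i => (-1 : ℝ) ^ l * ((l.choose i : ℝ) ^ 2 /
    ((c.choose i : ℝ) * (Q.choose (l - i) : ℝ))) * comp Q s c' n n' l l' 0) (l + 1)]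
  refine sum_congr rfl fun k hk => ?_
  have hkl : k ≤ l := Nat.lt_succ_iff.1 (mem_range.1 hk)
  rw [comp_eq hll hs hQ hs' hQ' hc hlc hlQ k hkl, show l + 1 - 1 - k = l - k by omega,
    Nat.sub_sub_self hkl, Nat.choose_symm hkl, top, pow_add]
  have e : (-1 : ℝ) ^ k * (-1) ^ k = 1 := by rw [← mul_pow]; simp
  linear_combination ((-1 : ℝ) ^ l * (l.choose k : ℝ) ^ 2 /
    ((c.choose (l - k) : ℝ) * (Q.choose k : ℝ)) * comp Q s c' n n' l l' 0) * e

theorem dsum_symm {Q s c c' n n' l l' : ℕ} (hll : l + n = l' + n') :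
    dsum Q s c c' n n' l l' = dsum Q s c' c n' n l' l := by
  simp only [dsum, comp, mul_sum]
  rw [sum_comm]
  refine sum_congr rfl fun a _ => sum_congr rfl fun b _ => ?_
  rw [show (l : ℤ) + n - b - a = (l' : ℤ) + n' - a - b by omega]
  ring

theorem choose_swap {c a m j : ℕ} (h : c = a + m) :
    (a.choose j : ℝ) * c.choose m = (c.choose j : ℝ) * ((c - j).choose m : ℝ) := by
  subst h
  rcases le_or_gt j a with hj | hj
  · have h1 := Nat.choose_mul (n := a + m) (k := m + j) (s := j) (by omega)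
    have h2 := Nat.choose_mul (n := a + m) (k := m + j) (s := m) (by omega)
    rw [show m + j - j = m by omega] at h1
    rw [show m + j - m = j by omega, show a + m - m = a by omega,
      Nat.choose_symm_add] at h2
    have : (a + m).choose j * (a + m - j).choose m = (a + m).choose m * a.choose j := by
      rw [← h1, ← h2]
    exact_mod_cast (by rw [this]; ring : a.choose j * (a + m).choose m =
      (a + m).choose j * (a + m - j).choose m)
  · rw [Nat.choose_eq_zero_of_lt hj]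
    rcases le_or_gt j (a + m) with h | h
    · rw [Nat.choose_eq_zero_of_lt (show a + m - j < m by omega)]; simp
    · rw [Nat.choose_eq_zero_of_lt h]; simp

theorem abs_comp_zero_le {Q s c' n n' l l' : ℕ} (hll : l + n = l' + n') (hn : 8 * (n + 1) ≤ Q)
    (hn' : 8 * (n' + 1) ≤ Q) (hs1 : Q ≤ 2 * s) (hs2 : s ≤ 3 * Q)
    (hc : c' + 2 * n' = s + Q) (hl : l ≤ Q) (hl' : l' ≤ Q) (hlc : l' ≤ c') :
    |comp Q s c' n n' l l' 0| ≤ 2 ^ n * ((3000 * (n + 1) ^ 2 * ((l : ℝ) + 1) / Q) ^ n *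
      ((2 * n : ℕ) + 1) * (2 * ((l' : ℝ) + 1) / (7 / 10)) ^ (2 * n) * (7 / 10) ^ l') := by
  set m := Q - n' with hm
  set G := c' - l' with hG
  have hterm : ∀ k ∈ range (l' + 1),
      top c' Q l' k * (rc s Q n ((l : ℤ) + n - (0 : ℕ) - k) k : ℝ) *
        (rc s Q n' ((l : ℤ) + n - (0 : ℕ) - k) (0 : ℕ) : ℝ) *
        ((Rep.chz s ((l : ℤ) + n - (0 : ℕ) - k) : ℤ) : ℝ)⁻¹ =
      ∑ i ∈ range (n + 1), (-1) ^ (l' + n' + i) * (n.choose i : ℝ) / (c'.choose m : ℝ) *
        ((-1 : ℝ) ^ k * (l'.choose k : ℝ) * (summandPoly Q s l n i).eval (k : ℝ) *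
          ((G + k).choose m : ℝ)) := by
    intro k hk
    have hkl : k ≤ l' := Nat.lt_succ_iff.1 (mem_range.1 hk)
    have hS : (l : ℤ) + n - ((0 : ℕ) : ℤ) - k = ((l + n - k : ℕ) : ℤ) := by omega
    rw [hS]
    -- the second factor has one term
    have e2 : rc s Q n' ((l + n - k : ℕ) : ℤ) ((0 : ℕ) : ℤ) =
        (-1) ^ n' * ((s - n').choose (l' - k) : ℤ) := by
      rw [rc, Rep.coef, sum_eq_single n']
      · rw [show ((0 : ℕ) : ℤ) + (n' : ℤ) - n' = ((0 : ℕ) : ℤ) by simp,
          show ((l + n - k : ℕ) : ℤ) - (n' : ℤ) = ((l' - k : ℕ) : ℤ) by omega,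
          Rep.chz_natCast, Rep.chz_natCast]
        simp
      · intro i hi hne
        rw [Rep.chz_neg _ (show ((0 : ℕ) : ℤ) + i - n' < 0 by
          have := mem_range.1 hi; omega)]
        ring
      · simp
    have hcs : (s - n').choose (l' - k) = 0 ∨ l + n - k ≤ s := by
      rcases le_or_gt (l + n - k) s with h | h
      · exact .inr h
      · exact .inl (Nat.choose_eq_zero_of_lt (by omega))
    have hcz : ((G + k).choose m : ℝ) * (c'.choose (l' - k) : ℝ) =
        ((s - n').choose (l' - k) : ℝ) * (c'.choose m : ℝ) := by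
      rw [choose_swap (show c' = (s - n') + m by omega), show c' - (l' - k) = G + k by omega]
      ring
    have p1 : (0 : ℝ) < c'.choose m := by exact_mod_cast Nat.choose_pos (by omega)
    have p2 : (0 : ℝ) < c'.choose (l' - k) := by exact_mod_cast Nat.choose_pos (by omega)
    have p3 : (0 : ℝ) < Q.choose k := by exact_mod_cast Nat.choose_pos (by omega)
    rcases hcs with h0 | hSs
    · have hz : ((G + k).choose m : ℝ) = 0 := by
        rw [h0] at hcz
        simpa [p2.ne'] using hcz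
      rw [e2, h0, hz]; simp
    have p4 : (0 : ℝ) < s.choose (l + n - k) := by exact_mod_cast Nat.choose_pos hSs
    have e1 : (rc s Q n ((l + n - k : ℕ) : ℤ) (k : ℤ) : ℝ) =
        ∑ i ∈ range (n + 1), (-1) ^ i * (n.choose i : ℝ) *
          ((summandPoly Q s l n i).eval (k : ℝ) *
            ((s.choose (l + n - k) : ℝ) * (Q.choose k : ℝ))) := by
      rw [rc, Rep.coef, Int.cast_sum]
      refine sum_congr rfl fun i hi => ?_
      have hin : i ≤ n := Nat.lt_succ_iff.1 (mem_range.1 hi)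
      rw [← choose_ratio_eq hin (by omega) (by omega) (by omega) (by omega) hSs]
      have a : Rep.chz (s - n) (((l + n - k : ℕ) : ℤ) - i) =
          ((if i ≤ l + n - k then (s - n).choose (l + n - k - i) else 0 : ℕ) : ℤ) := by
        split_ifs with h
        · rw [← Nat.cast_sub h, Rep.chz_natCast]
        · rw [Rep.chz_neg _ (by omega)]; rfl
      have b : Rep.chz (Q - n) ((k : ℤ) + i - n) =
          ((if n - i ≤ k then (Q - n).choose (k - (n - i)) else 0 : ℕ) : ℤ) := by
        split_ifs with h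
        · rw [show (k : ℤ) + i - n = ((k - (n - i) : ℕ) : ℤ) by omega, Rep.chz_natCast]
        · rw [Rep.chz_neg _ (by omega)]; rfl
      rw [a, b]
      push_cast
      ring
    rw [e1, e2, Rep.chz_natCast, mul_sum, sum_mul, sum_mul]
    refine sum_congr rfl fun i _ => ?_
    push_cast
    rw [top, pow_add, pow_add, pow_add]
    field_simp
    linear_combination (-((l'.choose k : ℝ) * (n.choose i : ℝ) *
      (summandPoly Q s l n i).eval (k : ℝ))) * hcz
  rw [comp, sum_congr rfl hterm, sum_comm]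
  refine (abs_sum_le_sum_abs _ _).trans ?_
  have h2 : ((2 : ℝ) ^ n) = ∑ i ∈ range (n + 1), (n.choose i : ℝ) := by
    exact_mod_cast (Nat.sum_range_choose n).symm
  rw [h2, sum_mul]
  refine sum_le_sum fun i hi => ?_
  rw [← mul_sum, abs_mul]
  have p1 : (0 : ℝ) < c'.choose m := by exact_mod_cast Nat.choose_pos (by omega)
  have hb := abs_summand_sum_le (Q := Q) (s := s) (l := l) (n := n) (L := l') (G := G) (m := m)
    (ρ := 7 / 10) (Nat.lt_succ_iff.1 (mem_range.1 hi)) hn hs1 hs2 hl (by norm_num) (by norm_num) ?_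
  · rw [show G + l' = c' by omega] at hb
    rw [abs_div, abs_mul, abs_pow, abs_neg, abs_one, one_pow, one_mul, Nat.abs_cast, Nat.abs_cast,
      div_mul_eq_mul_div, div_le_iff₀ p1]
    refine (mul_le_mul_of_nonneg_left hb (Nat.cast_nonneg _)).trans (le_of_eq ?_)
    ring
  · have a : (8 : ℝ) * (n' + 1) ≤ Q := by exact_mod_cast hn'
    have b : (Q : ℝ) ≤ 2 * s := by exact_mod_cast hs1
    have e : (c' : ℝ) + 2 * n' = s + Q := by exact_mod_cast hc
    have e' : (G : ℝ) + l' = c' := by exact_mod_cast (show G + l' = c' by omega)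
    have e'' : (m : ℝ) + n' = Q := by exact_mod_cast (show m + n' = Q by omega)
    linarith

theorem nrm_pos {a b L : ℕ} (ha : L ≤ a) (hb : L ≤ b) : 0 < nrm a b L := by
  refine sum_pos (fun i hi => ?_) (by simp)
  have hi' := mem_range.1 hi
  have : (0 : ℝ) < L.choose i := by exact_mod_cast Nat.choose_pos (by omega)
  have : (0 : ℝ) < a.choose i := by exact_mod_cast Nat.choose_pos (by omega)
  have : (0 : ℝ) < b.choose (L - i) := by exact_mod_cast Nat.choose_pos (by omega)
  positivity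

theorem inv_nrm_le {a b L : ℕ} (hb : L ≤ b) : (nrm a b L)⁻¹ ≤ (b : ℝ) ^ L := by
  have p : (0 : ℝ) < b.choose L := by exact_mod_cast Nat.choose_pos hb
  have h : ((b.choose L : ℝ))⁻¹ ≤ nrm a b L := by
    have := single_le_sum (f := fun i => (L.choose i : ℝ) ^ 2 /
      ((a.choose i : ℝ) * (b.choose (L - i) : ℝ))) (fun i _ => by positivity)
      (show 0 ∈ range (L + 1) by simp)
    simpa [nrm] using this
  calc (nrm a b L)⁻¹ ≤ (((b.choose L : ℝ))⁻¹)⁻¹ := inv_anti₀ (inv_pos.2 p) h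
    _ = (b.choose L : ℝ) := inv_inv _
    _ ≤ _ := by exact_mod_cast Nat.choose_le_pow b L

end Vale.Agent.P359.Decay
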