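import Vale.Agent.P359.Defs
import Vale.Agent.P359.Decay.Kernel

/-!
The scalar of a crossed contraction as the normalised recoupling sum, and its geometric bound.
-/

open Finset Filter

namespace Vale.Agent.P359.Decay

theorem coupN_eq_nrm (a b L : ℕ) : P359.coupN a b L = nrm a b L := rfl

theorem coupRaw_eq_rc (a b L M k : ℕ) : P359.coupRaw a b L M k = (rc a b L M k : ℝ) := by
  rw [P359.coupRaw, rc, Rep.coef, Int.cast_sum]
  refine sum_congr rfl fun i _ => ?_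
  by_cases h1 : i ≤ M
  swap
  · rw [if_neg (fun h => h1 h.1), Rep.chz_neg _ (show (M : ℤ) - i < 0 by omega)]; simp
  by_cases h2 : L ≤ k + i
  swap
  · rw [if_neg (fun h => h2 h.2), Rep.chz_neg _ (show (k : ℤ) + i - L < 0 by omega)]; simp
  rw [if_pos ⟨h1, h2⟩, show (M : ℤ) - i = ((M - i : ℕ) : ℤ) by omega,
    show (k : ℤ) + i - L = ((k + i - L : ℕ) : ℤ) by omega, Rep.chz_natCast, Rep.chz_natCast]
  push_cast; ring

theorem coup_top {c Q l k : ℕ} (hlc : l ≤ c) (hlQ : l ≤ Q) (hk : k ≤ l) :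
    P359.coup c Q l 0 (l - k) k = (-1) ^ (l + k) * (l.choose k : ℝ) /
      Real.sqrt ((c.choose (l - k) : ℝ) * (Q.choose k : ℝ) * nrm c Q l) := by
  rw [P359.coup, if_pos ⟨hlc, hlQ, by omega⟩, Nat.choose_zero_right, Nat.cast_one, one_mul,
    coupN_eq_nrm]
  congr 1
  rw [P359.coupRaw, sum_eq_single (l - k)]
  · rw [if_pos ⟨le_rfl, by omega⟩, Nat.sub_self, show k + (l - k) - l = 0 by omega,
      Nat.choose_zero_right, Nat.choose_zero_right, Nat.choose_symm hk]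
    rw [show l + k = (l - k) + 2 * k by omega, pow_add, pow_mul]
    simp
  · intro i _ hne
    by_cases h : i ≤ l - k ∧ l ≤ k + i
    · omega
    · rw [if_neg h]
  · intro h; exact absurd (mem_range.2 (by omega)) h

theorem scal_eq_dsum {Q s n n' l l' : ℕ} (hns : n ≤ s) (hnQ : n ≤ Q) (hn's : n' ≤ s)
    (hn'Q : n' ≤ Q) (hll : l + n = l' + n') (hl : l ≤ Q) (hl' : l' ≤ Q) (hlc : l ≤ s + Q - 2 * n)
    (hlc' : l' ≤ s + Q - 2 * n') :
    P359.scal s Q Q n n' l l' = dsum Q s (s + Q - 2 * n) (s + Q - 2 * n') n n' l l' /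
      (Real.sqrt (nrm (s + Q - 2 * n) Q l) * Real.sqrt (nrm (s + Q - 2 * n') Q l') *
        Real.sqrt (nrm s Q n) * Real.sqrt (nrm s Q n')) := by
  set c := s + Q - 2 * n with hc
  set c' := s + Q - 2 * n' with hc'
  rw [P359.scal, dsum, sum_div]
  refine sum_congr rfl fun a ha => ?_
  rw [comp, mul_sum, sum_div]
  refine sum_congr rfl fun b hb => ?_
  have hal : a ≤ l := Nat.lt_succ_iff.1 (mem_range.1 ha)
  have hbl : b ≤ l' := Nat.lt_succ_iff.1 (mem_range.1 hb)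
  rw [← hc, ← hc', coup_top hlc hl hal, coup_top hlc' hl' hbl, P359.contr]
  rcases lt_or_ge (l + n) (a + b) with hneg | hpos
  · rw [rc_zero hns hnQ (.inl (show (l : ℤ) + n - a - b < 0 by omega)),
      Finset.sum_eq_zero fun S _ => ?_]
    · simp
    · rw [P359.coup, if_neg (by omega)]; simp
  set S := l + n - a - b with hS
  rw [show (l : ℤ) + n - a - b = (S : ℤ) by omega]
  rcases lt_or_ge s S with hbig | hsmall
  · rw [rc_zero hns hnQ (M := (S : ℤ)) (.inr (.inl (by omega))), Finset.sum_eq_zero fun T hT => ?_]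
    · simp
    · rw [P359.coup, if_neg (by have := mem_range.1 hT; omega)]; simp
  rw [sum_eq_single S]
  rotate_left
  · intro T _ hne; rw [P359.coup, if_neg (by omega)]; simp
  · intro h; exact absurd (mem_range.2 (by omega)) h
  rw [P359.coup, if_pos ⟨hns, hnQ, by omega⟩, P359.coup, if_pos ⟨hn's, hn'Q, by omega⟩,
    coupRaw_eq_rc, coupRaw_eq_rc, coupN_eq_nrm, coupN_eq_nrm, ← hc, ← hc', Rep.chz_natCast]
  have pA : (0 : ℝ) < c.choose (l - a) := by exact_mod_cast Nat.choose_pos (by omega)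
  have pB : (0 : ℝ) < c'.choose (l' - b) := by exact_mod_cast Nat.choose_pos (by omega)
  have pa : (0 : ℝ) < Q.choose a := by exact_mod_cast Nat.choose_pos (by omega)
  have pb : (0 : ℝ) < Q.choose b := by exact_mod_cast Nat.choose_pos (by omega)
  have ps : (0 : ℝ) < s.choose S := by exact_mod_cast Nat.choose_pos hsmall
  have q1 := nrm_pos (a := c) (b := Q) hlc hl
  have q2 := nrm_pos (a := c') (b := Q) hlc' hl'
  have q3 := nrm_pos (a := s) (b := Q) hns hnQ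
  have q4 := nrm_pos (a := s) (b := Q) hn's hn'Q
  have eS : ((S : ℤ) : ℝ) = (S : ℝ) := by simp
  have h3 : ∀ x y z : ℝ, 0 ≤ x → 0 ≤ y →
      Real.sqrt (x * y * z) = Real.sqrt x * Real.sqrt y * Real.sqrt z := fun x y z hx hy => by
    rw [Real.sqrt_mul (mul_nonneg hx hy), Real.sqrt_mul hx]
  rw [h3 _ _ (nrm c Q l) pA.le pa.le, h3 _ _ (nrm c' Q l') pB.le pb.le,
    Real.sqrt_mul (by positivity) (nrm s Q n), Real.sqrt_mul (by positivity) (nrm s Q n'),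
    h3 _ _ _ pA.le ps.le, h3 _ _ _ pB.le ps.le]
  simp only [top, Int.cast_natCast]
  field_simp
  rw [Real.sq_sqrt pA.le, Real.sq_sqrt pB.le, Real.sq_sqrt pa.le, Real.sq_sqrt pb.le,
    Real.sq_sqrt ps.le]
  ring

theorem scal_sq_le {Q s n n' l l' : ℕ} (hn : 8 * (n + 1) ≤ Q) (hn' : 8 * (n' + 1) ≤ Q)
    (hs1 : Q ≤ 2 * s) (hs2 : s ≤ 3 * Q) (hll : l + n = l' + n') (hl : l ≤ Q) (hl' : l' ≤ Q)
    (hlc : l ≤ s + Q - 2 * n) (hlc' : l' ≤ s + Q - 2 * n') :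
    P359.scal s Q Q n n' l l' ^ 2 ≤
      (2 ^ n * ((3000 * (n + 1) ^ 2 * ((l : ℝ) + 1)) ^ n * ((2 * n : ℕ) + 1) *
        (2 * ((l' : ℝ) + 1) / (7 / 10)) ^ (2 * n) * (7 / 10) ^ l')) *
      (2 ^ n' * ((3000 * (n' + 1) ^ 2 * ((l' : ℝ) + 1)) ^ n' * ((2 * n' : ℕ) + 1) *
        (2 * ((l : ℝ) + 1) / (7 / 10)) ^ (2 * n') * (7 / 10) ^ l)) := by
  set c := s + Q - 2 * n with hc
  set c' := s + Q - 2 * n' with hc'
  have hns : n ≤ s := by omega
  have hn's : n' ≤ s := by omega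
  have q1 := nrm_pos (a := c) (b := Q) hlc hl
  have q2 := nrm_pos (a := c') (b := Q) hlc' hl'
  have q3 := nrm_pos (a := s) (b := Q) hns (show n ≤ Q by omega)
  have q4 := nrm_pos (a := s) (b := Q) hn's (show n' ≤ Q by omega)
  have e := scal_eq_dsum hns (by omega) hn's (by omega) hll hl hl' hlc hlc'
  have d1 := dsum_eq (c := c) (c' := c') hll hns (by omega) hn's (by omega) (by omega) hlc' hl'
  have d2 := dsum_eq (c := c') (c' := c) hll.symm hn's (by omega) hns (by omega) (by omega) hlc hl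
  rw [← dsum_symm hll] at d2
  have key : P359.scal s Q Q n n' l l' ^ 2 =
      ((-1) ^ l * comp Q s c' n n' l l' 0) * ((-1) ^ l' * comp Q s c n' n l' l 0) *
        ((nrm s Q n)⁻¹ * (nrm s Q n')⁻¹) := by
    rw [e, ← hc, ← hc', sq, div_mul_div_comm]
    nth_rewrite 1 [d1]
    rw [d2]
    field_simp
    rw [Real.sq_sqrt q1.le, Real.sq_sqrt q2.le, Real.sq_sqrt q3.le, Real.sq_sqrt q4.le]
    ring
  have b1 := abs_comp_zero_le (c' := c') hll hn hn' hs1 hs2 (by omega) hl hl' hlc'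
  have b2 := abs_comp_zero_le (c' := c) hll.symm hn' hn hs1 hs2 (by omega) hl' hl hlc
  have hQ0 : (0 : ℝ) < Q := by exact_mod_cast (show 0 < Q by omega)
  rw [key]
  refine (le_abs_self _).trans ?_
  simp only [abs_mul, abs_pow, abs_neg, abs_one, one_pow, one_mul, abs_inv, abs_of_pos q3,
    abs_of_pos q4]
  calc |comp Q s c' n n' l l' 0| * |comp Q s c n' n l' l 0| * ((nrm s Q n)⁻¹ * (nrm s Q n')⁻¹)
      ≤ (2 ^ n * ((3000 * (n + 1) ^ 2 * ((l : ℝ) + 1) / Q) ^ n * ((2 * n : ℕ) + 1) *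
          (2 * ((l' : ℝ) + 1) / (7 / 10)) ^ (2 * n) * (7 / 10) ^ l')) *
        (2 ^ n' * ((3000 * (n' + 1) ^ 2 * ((l' : ℝ) + 1) / Q) ^ n' * ((2 * n' : ℕ) + 1) *
          (2 * ((l : ℝ) + 1) / (7 / 10)) ^ (2 * n') * (7 / 10) ^ l)) *
        ((Q : ℝ) ^ n * (Q : ℝ) ^ n') := by
        refine mul_le_mul (mul_le_mul b1 b2 (abs_nonneg _) (by positivity))
          (mul_le_mul (inv_nrm_le (by omega)) (inv_nrm_le (by omega)) (inv_nonneg.2 q4.le)
            (by positivity)) (by positivity) (by positivity)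
    _ = _ := by
        simp only [div_pow]
        field_simp

theorem exists_poly_geom_bound (E : ℕ) :
    ∃ B : ℝ, ∀ l : ℕ, ((l : ℝ) + 1) ^ E * (49 / 64) ^ l ≤ B := by
  have h : Tendsto (fun l : ℕ => ((l : ℝ)) ^ E * (49 / 64 : ℝ) ^ l) atTop (nhds 0) :=
    tendsto_pow_const_mul_const_pow_of_abs_lt_one E (by norm_num [abs_of_pos])
  have h1 := h.comp (tendsto_add_atTop_nat 1)
  obtain ⟨B, hB⟩ := h1.bddAbove_range
  refine ⟨B * (64 / 49), fun l => ?_⟩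
  have := hB ⟨l, rfl⟩
  simp only [Function.comp_apply] at this
  push_cast at this
  rw [pow_succ, ← mul_assoc] at this
  linarith

/-- Geometric decay in the weight, uniformly in the number of flux quanta. -/
theorem scal_decay (n n' : ℕ) :
    ∃ C : ℝ, ∀ Q s l l' : ℕ, 8 * (n + n' + 1) ≤ Q → Q ≤ 2 * s → s ≤ 3 * Q →
      l + n = l' + n' → |P359.scal s Q Q n n' l l'| ≤ C * (4 / 5) ^ l := by
  obtain ⟨B, hB⟩ := exists_poly_geom_bound (3 * n + 3 * n')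
  set K : ℝ := (2 ^ n * (3000 * ((n : ℝ) + 1) ^ 2) ^ n * ((2 * n : ℕ) + 1) *
      (2 * ((n : ℝ) + 1) / (7 / 10)) ^ (2 * n) * (10 / 7) ^ n') *
    (2 ^ n' * (3000 * ((n' : ℝ) + 1) ^ 2 * ((n : ℝ) + 1)) ^ n' * ((2 * n' : ℕ) + 1) *
      (2 / (7 / 10)) ^ (2 * n')) with hK
  have hK0 : 0 ≤ K := by positivity
  have hB0 : 0 ≤ B := le_trans (by positivity) (hB 0)
  refine ⟨Real.sqrt (K * B), fun Q s l l' hQ hs1 hs2 hll => ?_⟩
  have hr : (0 : ℝ) ≤ Real.sqrt (K * B) * (4 / 5) ^ l := by positivity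
  by_cases hok : l ≤ Q ∧ l' ≤ Q ∧ l ≤ s + Q - 2 * n ∧ l' ≤ s + Q - 2 * n'
  swap
  · rw [P359.scal, Finset.sum_eq_zero fun a ha => Finset.sum_eq_zero fun b hb => ?_, abs_zero]
    · exact hr
    by_cases h1 : l ≤ Q ∧ l ≤ s + Q - 2 * n
    · have h2 : ¬(l' ≤ s + Q - 2 * n' ∧ l' ≤ Q) := fun h2 => hok ⟨h1.1, h2.2, h1.2, h2.1⟩
      rw [P359.coup.eq_def (s + Q - 2 * n') Q l', if_neg (fun h => h2 ⟨h.1, h.2.1⟩)]; simp
    · rw [P359.coup.eq_def (s + Q - 2 * n) Q l, if_neg (fun h => h1 ⟨h.2.1, h.1⟩)]; simp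
  obtain ⟨hl, hl', hlc, hlc'⟩ := hok
  have h := scal_sq_le (show 8 * (n + 1) ≤ Q by omega) (show 8 * (n' + 1) ≤ Q by omega) hs1 hs2
    hll hl hl' hlc hlc'
  have hx : (l' : ℝ) + 1 ≤ ((n : ℝ) + 1) * ((l : ℝ) + 1) := by
    have a : (l : ℝ) + n = l' + n' := by exact_mod_cast hll
    have b : (0 : ℝ) ≤ (n : ℝ) * l := by positivity
    have c : (0 : ℝ) ≤ n' := Nat.cast_nonneg _
    linarith
  have hg : (7 / 10 : ℝ) ^ l' ≤ (10 / 7) ^ n' * (7 / 10) ^ l := by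
    have a : (7 / 10 : ℝ) ^ (l' + n') ≤ (7 / 10) ^ l :=
      pow_le_pow_of_le_one (by norm_num) (by norm_num) (by omega)
    have e : ((10 : ℝ) / 7) ^ n' * (7 / 10) ^ n' = 1 := by rw [← mul_pow]; norm_num
    have := mul_le_mul_of_nonneg_left a (by positivity : (0 : ℝ) ≤ (10 / 7) ^ n')
    calc (7 / 10 : ℝ) ^ l' = (10 / 7) ^ n' * (7 / 10) ^ (l' + n') := by
          rw [pow_add]; linear_combination -((7 / 10 : ℝ) ^ l') * e
      _ ≤ _ := this
  have hsq : P359.scal s Q Q n n' l l' ^ 2 ≤ (Real.sqrt (K * B) * (4 / 5) ^ l) ^ 2 := by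
    refine h.trans ?_
    rw [mul_pow (Real.sqrt (K * B)), Real.sq_sqrt (by positivity)]
    calc _ ≤ (2 ^ n * ((3000 * ((n : ℝ) + 1) ^ 2 * ((l : ℝ) + 1)) ^ n * ((2 * n : ℕ) + 1) *
          (2 * (((n : ℝ) + 1) * ((l : ℝ) + 1)) / (7 / 10)) ^ (2 * n) *
            ((10 / 7) ^ n' * (7 / 10) ^ l))) *
        (2 ^ n' * ((3000 * ((n' : ℝ) + 1) ^ 2 * (((n : ℝ) + 1) * ((l : ℝ) + 1))) ^ n' *
          ((2 * n' : ℕ) + 1) * (2 * ((l : ℝ) + 1) / (7 / 10)) ^ (2 * n') * (7 / 10) ^ l)) := by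
          gcongr
      _ = K * ((((l : ℝ) + 1) ^ (3 * n + 3 * n') * (49 / 64) ^ l) * ((4 / 5) ^ l) ^ 2) := by
          have e : ((7 / 10 : ℝ) ^ l) * (7 / 10) ^ l = (49 / 64) ^ l * ((4 / 5) ^ l) ^ 2 := by
            rw [sq, ← mul_pow, ← mul_pow, ← mul_pow]; norm_num
          revert e
          generalize ((7 / 10 : ℝ) ^ l) = u, ((49 / 64 : ℝ) ^ l) = w, ((4 / 5 : ℝ) ^ l) = z
          intro e
          calc _ = K * ((((l : ℝ) + 1) ^ (3 * n + 3 * n')) * (u * u)) := by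
                rw [hK]
                generalize ((l : ℝ) + 1) = x, ((n : ℝ) + 1) = y, ((n' : ℝ) + 1) = y'
                simp only [mul_pow, div_pow]
                ring
            _ = _ := by rw [e]; ring
      _ ≤ K * (B * ((4 / 5) ^ l) ^ 2) := by gcongr; exact hB l
      _ = _ := by ring
  exact (abs_le_of_sq_le_sq hsq hr)

end Vale.Agent.P359.Decay
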