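import Vale.Agent.P359.Decay.Alternating

/-!
The summand of the one-component evaluation of a recoupling coefficient is a polynomial of
degree at most `2n` in the summation index, of size `O(((l+1)/Q)^n)`; with the alternating sum
this gives geometric decay in the weight.
-/

open Finset Polynomial

namespace Vale.Agent.P359.Decay

/-- The falling factorial of a polynomial. -/
noncomputable def ff (p : ℝ[X]) (j : ℕ) : ℝ[X] := ∏ t ∈ range j, (p - C (t : ℝ))

theorem natDegree_ff (p : ℝ[X]) (hp : p.natDegree ≤ 1) (j : ℕ) : (ff p j).natDegree ≤ j := by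
  refine (natDegree_prod_le _ _).trans ?_
  calc ∑ t ∈ range j, (p - C (t : ℝ)).natDegree ≤ ∑ _t ∈ range j, 1 :=
        sum_le_sum fun t _ => by rw [natDegree_sub_C]; exact hp
    _ = j := by simp

theorem eval_ff (p : ℝ[X]) (j : ℕ) (x : ℝ) :
    (ff p j).eval x = ∏ t ∈ range j, (p.eval x - t) := by
  simp [ff, eval_prod]

theorem abs_eval_ff_le (p : ℝ[X]) (j : ℕ) (x : ℝ) {A : ℝ} (h : |p.eval x| + j ≤ A) :
    |(ff p j).eval x| ≤ A ^ j := by
  rw [eval_ff, abs_prod]
  refine (Finset.prod_le_prod (fun t _ => abs_nonneg _) (g := fun _ => A) fun t ht => ?_).trans (by simp)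
  have : (t : ℝ) ≤ j := by exact_mod_cast (mem_range.1 ht).le
  have := abs_sub (p.eval x) (t : ℝ)
  rw [Nat.abs_cast] at this
  linarith

theorem eval_ff_natCast (p : ℝ[X]) (j N : ℕ) (x : ℝ) (h : p.eval x = N) :
    (ff p j).eval x = (N.descFactorial j : ℝ) := by
  rw [eval_ff, h]
  induction j with
  | zero => simp
  | succ j ih =>
    rw [prod_range_succ, ih, Nat.descFactorial_succ]
    rcases le_or_gt j N with hj | hj
    · push_cast [hj]; ring
    · rw [Nat.descFactorial_eq_zero_iff_lt.2 hj]; simp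

/-- The summand polynomial. -/
noncomputable def summandPoly (Q s l n i : ℕ) : ℝ[X] :=
  C (((s.descFactorial n : ℝ) * Q.descFactorial n)⁻¹) *
    (ff (C ((l : ℝ) + n) - X) i * ff (C ((s : ℝ) - l - n) + X) (n - i) *
      ff X (n - i) * ff (C (Q : ℝ) - X) i)

theorem natDegree_summandPoly {Q s l n i : ℕ} (hi : i ≤ n) :
    (summandPoly Q s l n i).natDegree ≤ 2 * n := by
  refine natDegree_mul_le.trans ?_
  rw [natDegree_C, zero_add]
  refine natDegree_mul_le.trans ?_
  refine le_trans (add_le_add (natDegree_mul_le.trans (add_le_add natDegree_mul_le le_rfl)) le_rfl) ?_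
  have e1 : (C ((l : ℝ) + n) - X).natDegree ≤ 1 := by
    refine (natDegree_sub_le _ _).trans ?_; rw [natDegree_C, natDegree_X]; simp
  have e2 : (C ((s : ℝ) - l - n) + X).natDegree ≤ 1 := by
    refine (natDegree_add_le _ _).trans ?_; rw [natDegree_C, natDegree_X]; simp
  have e3 : (C (Q : ℝ) - X).natDegree ≤ 1 := by
    refine (natDegree_sub_le _ _).trans ?_; rw [natDegree_C, natDegree_X]; simp
  have := natDegree_ff _ e1 i
  have := natDegree_ff _ e2 (n - i)
  have := natDegree_ff X (by simp) (n - i)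
  have := natDegree_ff _ e3 i
  omega

theorem descFactorial_ge_half {x n : ℕ} (h : 2 * n ≤ x) :
    ((x : ℝ) / 2) ^ n ≤ (x.descFactorial n : ℝ) := by
  refine le_trans ?_ (Nat.cast_le.2 (Nat.pow_sub_le_descFactorial x n))
  push_cast
  gcongr
  have : ((x + 1 - n : ℕ) : ℝ) = (x : ℝ) + 1 - n := by
    rw [Nat.cast_sub (by omega)]; push_cast; ring
  rw [this]
  have : (2 : ℝ) * n ≤ x := by exact_mod_cast h
  linarith

theorem abs_summandPoly_le {Q s l n i k : ℕ} (hi : i ≤ n) (hk : k ≤ 2 * n) (hQ : 8 * (n + 1) ≤ Q)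
    (hs1 : Q ≤ 2 * s) (hs2 : s ≤ 3 * Q) (hl : l ≤ Q) :
    |(summandPoly Q s l n i).eval (k : ℝ)| ≤
      ((3000 * (n + 1) ^ 2 * ((l : ℝ) + 1)) / Q) ^ n := by
  have hQn : (8 : ℝ) * (n + 1) ≤ Q := by exact_mod_cast hQ
  have hs1' : (Q : ℝ) ≤ 2 * s := by exact_mod_cast hs1
  have hs2' : (s : ℝ) ≤ 3 * Q := by exact_mod_cast hs2
  have hl' : (l : ℝ) ≤ Q := by exact_mod_cast hl
  have hk' : (k : ℝ) ≤ 2 * n := by exact_mod_cast hk
  have hn0 : (0 : ℝ) ≤ n := Nat.cast_nonneg n
  have hl0 : (0 : ℝ) ≤ l := Nat.cast_nonneg l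
  have hk0 : (0 : ℝ) ≤ k := Nat.cast_nonneg k
  have hin : (i : ℝ) ≤ n := by exact_mod_cast hi
  have hni : ((n - i : ℕ) : ℝ) ≤ n := by exact_mod_cast Nat.sub_le n i
  set A : ℝ := 4 * (n + 1) * (l + 1) with hA
  set B : ℝ := 4 * (n + 1) with hB
  have nA : (l : ℝ) + 4 * n ≤ A := by rw [hA]; nlinarith
  have f1 : |(ff (C ((l : ℝ) + n) - X) i).eval (k : ℝ)| ≤ A ^ i := by
    refine abs_eval_ff_le _ _ _ ?_
    simp only [eval_sub, eval_C, eval_X]
    have : |(l : ℝ) + n - k| ≤ l + 3 * n := abs_le.2 ⟨by linarith, by linarith⟩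
    linarith
  have f2 : |(ff (C ((s : ℝ) - l - n) + X) (n - i)).eval (k : ℝ)| ≤ (6 * Q : ℝ) ^ (n - i) := by
    refine abs_eval_ff_le _ _ _ ?_
    simp only [eval_add, eval_C, eval_X]
    have : |(s : ℝ) - l - n + k| ≤ 5 * Q := abs_le.2 ⟨by linarith, by linarith⟩
    linarith
  have f3 : |(ff X (n - i)).eval (k : ℝ)| ≤ B ^ (n - i) := by
    refine abs_eval_ff_le _ _ _ ?_
    simp only [eval_X, Nat.abs_cast]
    linarith
  have f4 : |(ff (C (Q : ℝ) - X) i).eval (k : ℝ)| ≤ (6 * Q : ℝ) ^ i := by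
    refine abs_eval_ff_le _ _ _ ?_
    simp only [eval_sub, eval_C, eval_X]
    have : |(Q : ℝ) - k| ≤ 2 * Q := abs_le.2 ⟨by linarith, by linarith⟩
    linarith
  have d1 := descFactorial_ge_half (x := s) (n := n) (by omega)
  have d2 := descFactorial_ge_half (x := Q) (n := n) (by omega)
  have hQ0 : (0 : ℝ) < Q := by linarith
  have dd : ((Q : ℝ) ^ 2 / 8) ^ n ≤ (s.descFactorial n : ℝ) * Q.descFactorial n := by
    refine le_trans ?_ (mul_le_mul d1 d2 (by positivity) (Nat.cast_nonneg _))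
    rw [← mul_pow]
    gcongr
    nlinarith
  simp only [summandPoly, eval_mul, eval_C, abs_mul, abs_inv, Nat.abs_cast]
  have hAB : B ≤ A := by rw [hA, hB]; nlinarith
  have hB0 : (0 : ℝ) ≤ B := by positivity
  calc ((s.descFactorial n : ℝ) * Q.descFactorial n)⁻¹ *
        (|(ff (C ((l : ℝ) + n) - X) i).eval (k : ℝ)| *
          |(ff (C ((s : ℝ) - l - n) + X) (n - i)).eval (k : ℝ)| *
          |(ff X (n - i)).eval (k : ℝ)| * |(ff (C (Q : ℝ) - X) i).eval (k : ℝ)|)
      ≤ (((Q : ℝ) ^ 2 / 8) ^ n)⁻¹ * (A ^ i * (6 * Q : ℝ) ^ (n - i) * A ^ (n - i) *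
          (6 * Q : ℝ) ^ i) := by
        gcongr
        exact f3.trans (pow_le_pow_left₀ hB0 hAB _)
    _ = (48 * A / Q) ^ n := by
        obtain ⟨j, rfl⟩ := Nat.exists_eq_add_of_le hi
        rw [Nat.add_sub_cancel_left]
        have h8 : (48 : ℝ) * A / Q = 8 * (A * (6 * Q)) / (Q : ℝ) ^ 2 := by field_simp; ring
        rw [h8, div_pow, div_pow, mul_pow (8 : ℝ), mul_pow A, inv_div]
        field_simp
        ring
    _ ≤ _ := by
        rw [hA, hB]
        gcongr ?_ ^ n
        rw [div_le_div_iff_of_pos_right hQ0]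
        nlinarith

/-- The scalar decay estimate. -/
theorem abs_summand_sum_le {Q s l n i L G m : ℕ} {ρ : ℝ} (hi : i ≤ n) (hQ : 8 * (n + 1) ≤ Q)
    (hs1 : Q ≤ 2 * s) (hs2 : s ≤ 3 * Q) (hl : l ≤ Q) (hρ0 : 0 < ρ) (hρ1 : ρ ≤ 1)
    (hm : (m : ℝ) ≤ ρ * (G + L)) :
    |∑ k ∈ range (L + 1), (-1 : ℝ) ^ k * (L.choose k : ℝ) *
        (summandPoly Q s l n i).eval (k : ℝ) * ((G + k).choose m : ℝ)| ≤
      (3000 * (n + 1) ^ 2 * ((l : ℝ) + 1) / Q) ^ n * ((2 * n : ℕ) + 1) *
        (2 * ((L : ℝ) + 1) / ρ) ^ (2 * n) * ρ ^ L * ((G + L).choose m : ℝ) :=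
  abs_alt_sum_le _ (natDegree_summandPoly hi)
    (fun _ hk => abs_summandPoly_le hi hk hQ hs1 hs2 hl) hρ0 hρ1 hm

theorem factorial_div_descFactorial {a b : ℕ} (h : b ≤ a) :
    (a - b).factorial * a.descFactorial b = a.factorial :=
  Nat.factorial_mul_descFactorial h

/-- A shifted binomial coefficient as a multiple of the unshifted one. -/
theorem choose_shift {s S n i : ℕ} (hi : i ≤ n) (hn : n ≤ s) (hS : S ≤ s) :
    (if i ≤ S then (s - n).choose (S - i) else 0) * s.descFactorial n =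
      s.choose S * (S.descFactorial i * (s - S).descFactorial (n - i)) := by
  by_cases h : i ≤ S
  swap
  · rw [if_neg h, Nat.descFactorial_eq_zero_iff_lt.2 (not_le.1 h)]; simp
  rw [if_pos h]
  rcases lt_or_ge (s - S) (n - i) with h2 | h2
  · rw [Nat.choose_eq_zero_of_lt (by omega), Nat.descFactorial_eq_zero_iff_lt.2 h2]; simp
  have e1 := Nat.choose_mul_factorial_mul_factorial (n := s - n) (k := S - i) (by omega)
  have e2 := Nat.choose_mul_factorial_mul_factorial hS
  rw [← factorial_div_descFactorial h, ← factorial_div_descFactorial h2,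
    ← factorial_div_descFactorial hn, ← e1,
    show s - n - (S - i) = s - S - (n - i) by omega] at e2
  have hpos : 0 < (S - i).factorial * (s - S - (n - i)).factorial := by positivity
  apply Nat.eq_of_mul_eq_mul_right hpos
  ring_nf at e2 ⊢
  linarith

/-- The two shifted binomial ratios of the evaluation are the summand polynomial. -/
theorem choose_ratio_eq {Q s l n i k : ℕ} (hi : i ≤ n) (hn : n ≤ s) (hnQ : n ≤ Q) (hk : k ≤ Q)
    (hk2 : k ≤ l + n) (hS : l + n - k ≤ s) :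
    ((if i ≤ l + n - k then (s - n).choose (l + n - k - i) else 0 : ℕ) : ℝ) *
        ((if n - i ≤ k then (Q - n).choose (k - (n - i)) else 0 : ℕ) : ℝ) =
      (summandPoly Q s l n i).eval (k : ℝ) * ((s.choose (l + n - k) : ℝ) * (Q.choose k : ℝ)) := by
  have h1 := choose_shift hi hn hS
  have h2 := choose_shift (s := Q) (S := k) (n := n) (i := n - i) (Nat.sub_le _ _) hnQ hk
  rw [Nat.sub_sub_self hi] at h2
  have h1' := congrArg (fun x : ℕ => (x : ℝ)) h1
  have h2' := congrArg (fun x : ℕ => (x : ℝ)) h2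
  push_cast at h1' h2'
  simp only [summandPoly, eval_mul, eval_C]
  rw [eval_ff_natCast (C ((l : ℝ) + n) - X) i (l + n - k) (k : ℝ) (by
      simp [Nat.cast_sub hk2]),
    eval_ff_natCast (C ((s : ℝ) - l - n) + X) (n - i) (s - (l + n - k)) (k : ℝ) (by
      simp [Nat.cast_sub hk2, Nat.cast_sub hS]; ring),
    eval_ff_natCast X (n - i) k (k : ℝ) (by simp),
    eval_ff_natCast (C (Q : ℝ) - X) i (Q - k) (k : ℝ) (by simp [Nat.cast_sub hk])]
  have hd1 : (0 : ℝ) < s.descFactorial n := by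
    exact_mod_cast Nat.descFactorial_pos.2 hn
  have hd2 : (0 : ℝ) < Q.descFactorial n := by
    exact_mod_cast Nat.descFactorial_pos.2 hnQ
  field_simp
  push_cast
  linear_combination ((if n - i ≤ k then ((Q - n).choose (k - (n - i)) : ℝ) else 0) *
    (Q.descFactorial n : ℝ)) * h1' +
    ((s.choose (l + n - k) : ℝ) * ((l + n - k).descFactorial i : ℝ) *
      ((s - (l + n - k)).descFactorial (n - i) : ℝ)) * h2'

end Vale.Agent.P359.Decay
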